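import Vale.Agent.P011.H192.Span.Loc

/-!
# Transcendental elements of a global function field
-/

set_option linter.unusedSectionVars false

namespace Vale.Agent.P011.H192.Span

open Polynomial Vale.Agent.P011.H271 Vale.Agent.P011.H738

section

variable {p : ℕ} [Fact p.Prime] {k : Type} [Field k] [GFF k]

/-- A global function field has positive characteristic. -/
theorem exists_char (k : Type) [Field k] [GFF k] : ∃ (p : ℕ) (_ : Fact p.Prime) (_ : CharP k p)
    (F : Type) (_ : Field F) (_ : Finite F) (φ : RatFunc F →+* k), IsStr F k φ := by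
  obtain ⟨F, iF, iFin, φ, hφ⟩ := GFF.out (k := k)
  obtain ⟨p, hp⟩ := CharP.exists F
  have hpp : p.Prime := by
    rcases CharP.char_is_prime_or_zero F p with h | h
    · exact h
    · exfalso
      subst h
      have : CharZero F := CharP.charP_to_charZero F
      exact not_finite F
  exact ⟨p, ⟨hpp⟩, charP_of_injective_ringHom (φ.comp RatFunc.C).injective p, F, iF, iFin, φ, hφ⟩

variable [CharP k p]

/-- A nonzero element which is small at a place is transcendental. -/
theorem trans_of_abv [Algebra (ZMod p) k] {a : k} (ha0 : a ≠ 0) {v : Place k} (ha : v.abv a < 1) :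
    Transcendental (ZMod p) a := by
  intro h
  have h1 : IsIntegral (ZMod p) a⁻¹ := isAlgebraic_iff_isIntegral.1 h.inv
  have hnat : ∀ m : ℕ, v.abv (m : k) ≤ 1 := by
    intro m
    induction m with
    | zero => rw [Nat.cast_zero, map_zero]; exact zero_le_one
    | succ m ih =>
      rw [Nat.cast_succ]
      exact (v.nonarch _ _).trans (max_le ih (by rw [map_one]))
  have h2 := abv_le_of_integral h1 v fun r => by
    obtain ⟨m, rfl⟩ := ZMod.natCast_zmod_surjective r
    rw [map_natCast]
    exact hnat m
  rw [map_inv₀] at h2
  have h3 : 0 < v.abv a := v.abv.pos ha0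
  have h4 := (one_lt_inv₀ h3).2 ha
  linarith

/-- The field is algebraic over `F_p[y]`, `y` transcendental. -/
theorem alg_of_trans [Algebra (ZMod p) k] [Algebra (ZMod p)[X] k]
    (hy : Transcendental (ZMod p) (algebraMap (ZMod p)[X] k X)) :
    Algebra.IsAlgebraic (ZMod p)[X] k := by
  classical
  obtain ⟨F, iF, iFin, φ, hφ⟩ := GFF.out (k := k)
  have hF : CharP F p := (φ.comp RatFunc.C).charP (φ.comp RatFunc.C).injective p
  let _ : Algebra (ZMod p) F := ZMod.algebra F p
  let _ : Algebra F k := (φ.comp RatFunc.C).toAlgebra
  let _ : Algebra (RatFunc F) k := φ.toAlgebra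
  have : FiniteDimensional (RatFunc F) k := hφ.1
  have : IsScalarTower F (RatFunc F) k := IsScalarTower.of_algebraMap_eq' rfl
  have : IsScalarTower (ZMod p) F k :=
    IsScalarTower.of_algebraMap_eq' (Subsingleton.elim _ _)
  have : IsScalarTower (ZMod p) (ZMod p)[X] k :=
    IsScalarTower.of_algebraMap_eq' (Subsingleton.elim _ _)
  have hinj : Function.Injective (algebraMap (ZMod p)[X] k) := by
    have e : algebraMap (ZMod p)[X] k =
        ((Polynomial.aeval (algebraMap (ZMod p)[X] k X) :
          (ZMod p)[X] →ₐ[ZMod p] k) : (ZMod p)[X] →+* k) := by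
      refine Polynomial.ringHom_ext' (Subsingleton.elim _ _) ?_
      simp
    rw [e]
    exact transcendental_iff_injective.1 hy
  have : FaithfulSMul (ZMod p)[X] k := (faithfulSMul_iff_algebraMap_injective _ _).2 hinj
  have hyF : Transcendental F (algebraMap (ZMod p)[X] k X) := fun h => hy (h.restrictScalars _)
  have hfd : FiniteDimensional (IntermediateField.adjoin F {algebraMap (ZMod p)[X] k X}) k :=
    FunctionField.finiteDimensional_of_adjoin_transcendental hyF
  set E := IntermediateField.adjoin F {algebraMap (ZMod p)[X] k X} with hE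
  have hmem : ∀ r : (ZMod p)[X], algebraMap (ZMod p)[X] k r ∈ E := by
    intro r
    induction r using Polynomial.induction_on' with
    | add P Q hP hQ => rw [map_add]; exact add_mem hP hQ
    | monomial n a =>
      rw [← Polynomial.C_mul_X_pow_eq_monomial, map_mul, map_pow]
      refine mul_mem ?_ (pow_mem (IntermediateField.mem_adjoin_simple_self F _) n)
      have h1 : algebraMap (ZMod p)[X] k (C a) = algebraMap F k (algebraMap (ZMod p) F a) := by
        rw [← IsScalarTower.algebraMap_apply, IsScalarTower.algebraMap_apply (ZMod p) (ZMod p)[X] k]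
        rfl
      rw [h1]
      exact E.algebraMap_mem _
  let f : (ZMod p)[X] →+* E := (algebraMap (ZMod p)[X] k).codRestrict E.toSubfield.toSubring hmem
  let _ : Algebra (ZMod p)[X] E := f.toAlgebra
  have : IsScalarTower (ZMod p)[X] E k := IsScalarTower.of_algebraMap_eq (fun _ => rfl)
  have hEalg : ∀ x ∈ E, IsAlgebraic (ZMod p)[X] x := by
    intro x hx
    induction hx using IntermediateField.adjoin_induction with
    | mem x hx =>
      rw [Set.mem_singleton_iff] at hx
      rw [hx]
      exact isAlgebraic_algebraMap _
    | algebraMap c =>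
      have h1 : IsAlgebraic (ZMod p) (algebraMap F k c) :=
        (Algebra.IsAlgebraic.isAlgebraic (R := ZMod p) c).algebraMap
      exact h1.extendScalars (Polynomial.C_injective)
    | add x y _ _ hx hy => exact hx.add hy
    | inv x _ hx => exact hx.inv
    | mul x y _ _ hx hy => exact hx.mul hy
  have : Algebra.IsAlgebraic (ZMod p)[X] E := ⟨fun x =>
    (isAlgebraic_algebraMap_iff (FaithfulSMul.algebraMap_injective E k)).1 (hEalg x x.2)⟩
  exact Algebra.IsAlgebraic.trans (ZMod p)[X] E k

end

end Vale.Agent.P011.H192.Span
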