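import Vale.Agent.P011.H192.Span.Sep
import Vale.Agent.P011.H961.Apx2

/-!
# The span lemma over global function fields

`span_ff`: let `T` be a finite set of places outside which the algebra has local models.  Every
element of `D` which is small at `T` is a sum of elements `± (u - 1)`, `u` unitary and near one at
`T`.  Every characteristic.
-/

open Module

set_option linter.unusedSectionVars false

namespace Vale.Agent.P011.H192.Span

open Polynomial Vale.Agent.P011.H738 Vale.Agent.P011.H271 Vale.Agent.P011.H698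
  Vale.Agent.P011.H505.Span Vale.Agent.P011.H519.Odd Vale.Agent.P011.H961

section loc

variable {k K A Ω : Type} [Field k] [GFF k] [Field K] [StarRing K] [Ring A] [StarRing A]
  [Algebra k K] [Algebra k A] [Algebra K A] [IsScalarTower k K A] [StarModule K A] {n N : ℕ}
  [Field Ω] [Algebra K Ω] {f : A →ₐ[K] Matrix (Fin n) (Fin n) Ω} {B : Basis (Fin N) k A}
  {v : Place k} {L : Type} [NontriviallyNormedField L]
  {E : Subgroup (Matrix (Fin n) (Fin n) L)ˣ} {g : A →+* Matrix (Fin n) (Fin n) L}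

theorem isClosed_eb' (R : ℝ) : IsClosed {x : Matrix (Fin n) (Fin n) L | Eb R x} := by
  have e : {x : Matrix (Fin n) (Fin n) L | Eb R x} =
      ⋂ i, ⋂ j, (fun x : Matrix (Fin n) (Fin n) L => x i j) ⁻¹' Metric.closedBall 0 R := by
    ext x
    simp only [Eb, Set.mem_ofPred_eq, Set.mem_iInter, Set.mem_preimage, mem_closedBall_zero_iff]
  rw [e]
  exact isClosed_iInter fun i => isClosed_iInter fun j =>
    Metric.isClosed_closedBall.preimage (continuous_id.matrix_elem i j)

/-- The conjugates of a noncentral unitary element by unitary elements are not bounded at a place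
with a local model. -/
theorem unb_conj' (h : LM f B v E g) {u : UA A} (hu : u ∈ nzU A) (R : ℝ) :
    ∃ w : UA A, ¬ Bd B v R (((w⁻¹ * u * w : UA A) : Aˣ) : A) := by
  obtain ⟨C, hC1, hC⟩ := h.up
  obtain ⟨R0, hR0⟩ := h.unbd
  obtain ⟨l, hl, hb⟩ := hR0 (h.iota u) (h.iota u).2 (h.ncE_of hu) (C * |R|)
  have hE : l.prod ∈ E := Subgroup.list_prod_mem _ fun s hs => (hl s hs).1
  have hop : IsOpen {T : (Matrix (Fin n) (Fin n) L)ˣ | ¬ Eb (C * |R|)
      ((T⁻¹ * h.iota u * T : (Matrix (Fin n) (Fin n) L)ˣ) : Matrix (Fin n) (Fin n) L)} := by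
    have hc : Continuous fun T : (Matrix (Fin n) (Fin n) L)ˣ =>
        ((T⁻¹ * h.iota u * T : (Matrix (Fin n) (Fin n) L)ˣ) : Matrix (Fin n) (Fin n) L) :=
      Units.continuous_val.comp (by fun_prop)
    exact ((isClosed_eb' (n := n) (L := L) (C * |R|)).preimage hc).isOpen_compl
  obtain ⟨_, hT, ⟨w, rfl⟩⟩ := mem_closure_iff.mp (h.dense hE) _ hop hb
  refine ⟨w, fun hbd => hT ?_⟩
  have h1 := hC |R| _ (abs_nonneg R) (hbd.mono (le_abs_self R))
  have e : ((h.iota w : E) : (Matrix (Fin n) (Fin n) L)ˣ)⁻¹ *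
      ((h.iota u : E) : (Matrix (Fin n) (Fin n) L)ˣ) *
      ((h.iota w : E) : (Matrix (Fin n) (Fin n) L)ˣ) =
        ((h.iota (w⁻¹ * u * w) : E) : (Matrix (Fin n) (Fin n) L)ˣ) := by
    rw [map_mul, map_mul, map_inv]
    rfl
  change Eb _ ((((h.iota w : E) : (Matrix (Fin n) (Fin n) L)ˣ)⁻¹ *
      ((h.iota u : E) : (Matrix (Fin n) (Fin n) L)ˣ) *
      ((h.iota w : E) : (Matrix (Fin n) (Fin n) L)ˣ) : (Matrix (Fin n) (Fin n) L)ˣ) :
        Matrix (Fin n) (Fin n) L)
  rw [e, h.iota_val]
  exact h1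

end loc

section main

variable {k K D Ω : Type} [Field k] [GFF k] [Field K] [StarRing K] [DivisionRing D] [StarRing D]
  [Algebra k K] [Algebra k D] [Algebra K D] [IsScalarTower k K D] [StarModule K D] {n N : ℕ}
  [Field Ω] [Algebra K Ω]

/-- There are noncentral unitary elements. -/
theorem exists_nz (hA : Anis k K D n) (hn : 2 ≤ n) : ∃ u : UA D, u ∈ nzU D := by
  classical
  obtain ⟨κ, hκ, hκne⟩ := exists_kappa hA
  set ω : D := algebraMap K D κ with hωd
  have hω : star ω = 1 - ω := by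
    rw [hωd, ← algebraMap_star_comm, hκ, map_sub, map_one]
  have hωne : ω ≠ 1 - ω := by
    intro h
    apply hκne
    apply (algebraMap K D).injective
    rw [map_sub, map_one]
    exact h
  have hωc : ∀ x, ω * x = x * ω := fun x => Algebra.commutes κ x
  have hκ0 : ω - (1 - ω) ≠ 0 := sub_ne_zero.2 hωne
  by_contra hcon
  push Not at hcon
  -- every unitary element is central
  have hun : ∀ u : D, u * star u = 1 → ∀ x, u * x = x * u := by
    intro u hu x
    have hu0 : u ≠ 0 := by rintro rfl; simp at hu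
    have h1 := hcon ⟨Units.mk0 u hu0, hu⟩
    simp only [nzU, Set.mem_ofPred_eq, not_exists, not_not] at h1
    exact h1 x
  have hsym : ∀ y : D, star y = y → ∀ x, y * x = x * y := by
    intro y hy x
    have hden := cay_den hω hωne hy
    have h1 := hun _ (cay_unitary hω hωc hy hden)
    have h2 : ∀ x, ((ω - (1 - ω)) * (y + (1 - ω))⁻¹) * x =
        x * ((ω - (1 - ω)) * (y + (1 - ω))⁻¹) := by
      intro x
      rw [← cay_sub hden, sub_mul, mul_sub, h1 x, one_mul, mul_one]
    have hκc : ∀ x, (ω - (1 - ω)) * x = x * (ω - (1 - ω)) := by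
      intro x
      rw [sub_mul, mul_sub, sub_mul, mul_sub, hωc x, one_mul, mul_one]
    have h3 : ∀ x, (y + (1 - ω))⁻¹ * x = x * (y + (1 - ω))⁻¹ := by
      intro x
      have h4 := h2 x
      rw [mul_assoc, ← mul_assoc x, ← hκc x, mul_assoc] at h4
      exact mul_left_cancel₀ hκ0 h4
    have h5 : (y + (1 - ω)) * x = x * (y + (1 - ω)) := by
      have h6 := h3 x
      have h7 := congrArg (fun z => (y + (1 - ω)) * z * (y + (1 - ω))) h6
      simp only [mul_assoc] at h7
      rw [mul_inv_cancel_left₀ hden, inv_mul_cancel₀ hden, mul_one] at h7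
      exact h7.symm
    have h8 : (1 - ω) * x = x * (1 - ω) := by
      rw [sub_mul, mul_sub, hωc x, one_mul, mul_one]
    rw [add_mul, mul_add, h8] at h5
    exact add_right_cancel h5
  have hall : ∀ z x : D, z * x = x * z := by
    intro z x
    have hκc : ∀ x, (ω - (1 - ω)) * x = x * (ω - (1 - ω)) := by
      intro x
      rw [sub_mul, mul_sub, sub_mul, mul_sub, hωc x, one_mul, mul_one]
    have hκc' : ∀ x, (ω - (1 - ω))⁻¹ * x = x * (ω - (1 - ω))⁻¹ := by
      intro x
      calc (ω - (1 - ω))⁻¹ * x = (ω - (1 - ω))⁻¹ * (x * (ω - (1 - ω))) * (ω - (1 - ω))⁻¹ := by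
            rw [mul_assoc, mul_assoc, mul_inv_cancel₀ hκ0, mul_one]
        _ = x * (ω - (1 - ω))⁻¹ := by
            rw [← hκc, ← mul_assoc, inv_mul_cancel₀ hκ0, one_mul]
    have hsκ : star (ω - (1 - ω))⁻¹ = - (ω - (1 - ω))⁻¹ := by
      rw [star_inv₀]
      have : star (ω - (1 - ω)) = - (ω - (1 - ω)) := by
        rw [star_sub, star_sub, star_one, hω]; abel
      rw [this, inv_neg]
    let y : D := (z - star z) * (ω - (1 - ω))⁻¹
    have hy : star y = y := by
      simp only [y]
      rw [star_mul, hsκ, star_sub, star_star, neg_mul, ← mul_neg, neg_sub, hκc']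
    have hyz : (z - star z) = (ω - (1 - ω)) * y := by
      simp only [y]
      rw [hκc, mul_assoc, inv_mul_cancel₀ hκ0, mul_one]
    have hx : star (z - ω * y) = z - ω * y := by
      rw [star_sub, star_mul, hy, hω]
      have h1 : y * (1 - ω) = (1 - ω) * y := by rw [mul_sub, sub_mul, hωc y, mul_one, one_mul]
      have h2 : star z = z - (ω - (1 - ω)) * y := by rw [← hyz]; abel
      rw [h1, h2]
      noncomm_ring
    have h1 := hsym _ hx x
    have h2 := hsym _ hy x
    have h3 : ω * y * x = x * (ω * y) := by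
      rw [mul_assoc, h2, ← mul_assoc, hωc x, mul_assoc]
    have h4 : (z - ω * y) * x + ω * y * x = x * (z - ω * y) + x * (ω * y) := by rw [h1, h3]
    rwa [← add_mul, ← mul_add, sub_add_cancel] at h4
  have hcen := hA.central
  have h1 : (⊤ : Subalgebra K D) = ⊥ := by
    rw [eq_bot_iff]
    intro z _
    exact hcen.out (Subalgebra.mem_center_iff.2 fun x => hall x z)
  have h2 : finrank K D = 1 := Subalgebra.bot_eq_top_iff_finrank_eq_one.1 h1.symm
  rw [hA.finrank_eq] at h2
  nlinarith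

/-- Global elements near given unitary elements, in the letters of `WT`. -/
theorem exists_u (hA : Anis k K D n) (B : Basis (Fin N) k D) (T S : Finset (Place k))
    {v : Place k} (hv : v ∉ T) (u1 : UA D) {η θ : ℝ} (hη : 0 < η) (hθ : 0 < θ) :
    ∃ u ∈ WT B (T : Set (Place k)) θ, nb B v.abv (u - ((u1 : Dˣ) : D)) < η ∧
      ∀ w ∈ S, w ≠ v → nb B w.abv (u - 1) < η := by
  classical
  have hst := H519.star_smul_of_anis hA
  have hinf : Infinite k := by
    obtain ⟨p, _, _, F, iF, iFin, φ, hφ⟩ := exists_char k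
    exact Infinite.of_injective (φ.comp (algebraMap F[X] (RatFunc F)))
      (φ.injective.comp (IsFractionRing.injective F[X] (RatFunc F)))
  obtain ⟨C, hC1, -, -, hCs, -⟩ := exists_const B hst
  have hCsum : ∀ w ∈ T, C w ≤ 1 + ∑ w ∈ T, C w := fun w hw => by
    have := Finset.single_le_sum (f := C) (fun w _ => zero_le_one.trans (hC1 w)) hw
    linarith
  have hs0 : 0 < 1 + ∑ w ∈ T, C w := by
    have := Finset.sum_nonneg fun w (_ : w ∈ T) => zero_le_one.trans (hC1 w)
    linarith
  set ε : ℝ := min (η / (N + 1)) (θ / (1 + ∑ w ∈ T, C w)) with hε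
  have hN : (0 : ℝ) < N + 1 := by positivity
  have hεpos : 0 < ε := lt_min (div_pos hη hN) (div_pos hθ hs0)
  obtain ⟨u, hu⟩ := weak_unitary' hA B (insert v (T ∪ S)) (fun w => if w = v then u1 else 1) hεpos
  have hnb : ∀ (w : Place k) (x : D), Sm B w ε x → nb B w.abv x < η := by
    intro w x hx
    have h1 : nb B w.abv x ≤ ∑ _i : Fin N, ε :=
      Finset.sum_le_sum fun i _ => (hx i).le
    rw [Finset.sum_const, Finset.card_univ, Fintype.card_fin, nsmul_eq_mul] at h1
    have h2 : ε ≤ η / (N + 1) := min_le_left _ _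
    have h3 : (N : ℝ) * ε < η := by
      calc (N : ℝ) * ε < (N + 1) * ε := by nlinarith
        _ ≤ (N + 1) * (η / (N + 1)) := mul_le_mul_of_nonneg_left h2 hN.le
        _ = η := by field_simp
    linarith
  refine ⟨((u : Dˣ) : D), ⟨u.2, fun w hw => ?_⟩, ?_, fun w hw hwv => ?_⟩
  · have hw' := Finset.mem_coe.1 hw
    have h1 := hu w (Finset.mem_insert_of_mem (Finset.mem_union_left _ hw'))
    have hne : w ≠ v := fun h => hv (h ▸ hw')
    rw [if_neg hne] at h1
    have h2 : Bd B w ε (((u : Dˣ) : D) - 1) := Sm.bd h1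
    have h0 : ε ≤ θ / (1 + ∑ w ∈ T, C w) := min_le_right _ _
    have h5 : C w * ε ≤ θ := by
      calc C w * ε ≤ (1 + ∑ w ∈ T, C w) * (θ / (1 + ∑ w ∈ T, C w)) :=
            mul_le_mul (hCsum w hw') h0 hεpos.le hs0.le
        _ = θ := by field_simp
    have h6 : ε ≤ C w * ε := le_mul_of_one_le_left hεpos.le (hC1 w)
    refine ⟨h2.mono (h6.trans h5), ?_⟩
    have e : star ((u : Dˣ) : D) - 1 = star (((u : Dˣ) : D) - 1) := by rw [star_sub, star_one]
    rw [e]
    exact (hCs w ε _ hεpos.le h2).mono h5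
  · have h1 := hu v (Finset.mem_insert_self _ _)
    rw [if_pos rfl] at h1
    exact hnb v _ h1
  · have h1 := hu w (Finset.mem_insert_of_mem (Finset.mem_union_right _ hw))
    rw [if_neg hwv] at h1
    exact hnb w _ h1

/-- **The span lemma over global function fields.** -/
theorem span_ff (hA : Anis k K D n) (hn : 2 ≤ n) (f : D →ₐ[K] Matrix (Fin n) (Fin n) Ω)
    (B : Basis (Fin N) k D) (T : Finset (Place k))
    (hT : ∀ v ∉ T, ∃ (L : Type) (_ : NontriviallyNormedField L) (_ : ProperSpace L)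
      (_ : IsUltrametricDist L) (E : Subgroup (Matrix (Fin n) (Fin n) L)ˣ)
      (g : D →+* Matrix (Fin n) (Fin n) L), LM f B v E g) {ε : ℝ} (hε : 0 < ε) :
    ∃ δ > 0, ∀ x : D, (∀ v ∈ T, Sm B v δ x) →
      x ∈ AddSubgroup.closure
        {d : D | ∃ u : D, u * star u = 1 ∧ (∀ v ∈ T, Sm B v ε (u - 1)) ∧ d = u - 1} := by
  classical
  obtain ⟨p, hp, hkp, F, iF, iFin, φ, hφ⟩ := exists_char k
  have hst := H519.star_smul_of_anis hA
  have hfd : FiniteDimensional k D := B.finiteDimensional_of_finite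
  obtain ⟨κ, hκ, hκne⟩ := exists_kappa hA
  obtain ⟨C, hC1, -, hCm, hCs, -⟩ := exists_const B hst
  have hCsum : ∀ w ∈ T, C w ≤ 1 + ∑ w ∈ T, C w := fun w hw => by
    have := Finset.single_le_sum (f := C) (fun w _ => zero_le_one.trans (hC1 w)) hw
    linarith
  have hs0 : 0 < 1 + ∑ w ∈ T, C w := by
    have := Finset.sum_nonneg fun w (_ : w ∈ T) => zero_le_one.trans (hC1 w)
    linarith
  set η : ℝ := min (ε / 2) (1 / (1 + ∑ w ∈ T, C w)) with hηd
  have hη : 0 < η := lt_min (half_pos hε) (div_pos one_pos hs0)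
  have hCη : ∀ v ∈ (T : Set (Place k)), C v * η ≤ 1 := by
    intro v hv
    calc C v * η ≤ (1 + ∑ w ∈ T, C w) * (1 / (1 + ∑ w ∈ T, C w)) :=
          mul_le_mul (hCsum v (Finset.mem_coe.1 hv)) (min_le_right _ _) hη.le hs0.le
      _ = 1 := by field_simp
  -- the separating element
  obtain ⟨s, hs, hsW⟩ := exists_h (p := p) (B := B) hA hκ hκne hη T (φ RatFunc.X)
  obtain ⟨ψ, hψX, hψ⟩ := exists_str (p := p) hφ hs rfl
  let _ : Algebra (ZMod p)[X] k :=
    (ψ.comp (algebraMap (ZMod p)[X] (RatFunc (ZMod p)))).toAlgebra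
  have halg : ∀ r : (ZMod p)[X], algebraMap (ZMod p)[X] k r = ψ (algebraMap _ _ r) :=
    fun _ => rfl
  have hinj : Function.Injective (algebraMap (ZMod p)[X] k) :=
    ψ.injective.comp (IsFractionRing.injective (ZMod p)[X] (RatFunc (ZMod p)))
  have : FaithfulSMul (ZMod p)[X] k := (faithfulSMul_iff_algebraMap_injective _ _).2 hinj
  let _ : Algebra (ZMod p)[X] D := ((algebraMap k D).comp (algebraMap (ZMod p)[X] k)).toAlgebra'
    fun c x => Algebra.commutes _ x
  have : IsScalarTower (ZMod p)[X] k D := IsScalarTower.of_algebraMap_eq (fun _ => rfl)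
  have : Algebra.IsAlgebraic (ZMod p)[X] k := by
    let _ : Algebra (RatFunc (ZMod p)) k := ψ.toAlgebra
    have : IsScalarTower (ZMod p)[X] (RatFunc (ZMod p)) k := IsScalarTower.of_algebraMap_eq halg
    have : FiniteDimensional (RatFunc (ZMod p)) k := hψ.1
    exact (IsFractionRing.comap_isAlgebraic_iff (A := (ZMod p)[X]) (K := RatFunc (ZMod p))
      (C := k)).2 inferInstance
  have : Algebra.IsAlgebraic (ZMod p)[X] D := Algebra.IsAlgebraic.trans (ZMod p)[X] k D
  obtain ⟨O, hOR, hOG, hloc⟩ := loc_data (p := p) hψ halg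
  set ω : D := algebraMap K D κ with hωd
  have hω : star ω = 1 - ω := by
    rw [hωd, ← algebraMap_star_comm, hκ, map_sub, map_one]
  have hωne : ω ≠ 1 - ω := by
    intro h
    apply hκne
    apply (algebraMap K D).injective
    rw [map_sub, map_one]
    exact h
  have hωc : ∀ x, ω * x = x * ω := fun x => Algebra.commutes κ x
  obtain ⟨u0, hu0⟩ := exists_nz hA hn
  obtain ⟨δ, hδ, hδx⟩ := span_W (R := (ZMod p)[X]) (W := WT B (T : Set (Place k)) η)
    (fun u hu w hw => mul_mem_WT hη.le hCm hCη hu hw) (fun u hu => star_mem_WT hu)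
    hω hωne hωc
    (fun y hy => by
      obtain ⟨c, -, h1, h2⟩ := cay_WT (B := B) hst hω hωne hωc hη T 0 hy
      exact ⟨algebraMap k D c, by rw [Algebra.algebraMap_eq_smul_one, hst, star_one], h1, h2⟩)
    (poly_mem _ (by
      rw [IsScalarTower.algebraMap_apply (ZMod p)[X] k D, halg, RatFunc.algebraMap_X, hψX]
      exact hsW))
    hst (fun z hz hsz => scalar_of_central hA hz hsz) B (fun v : Place k => v.abv)
    (fun v x y => v.nonarch x y) T
    (fun v _ => by
      let _ := nnfPlace v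
      refine ⟨v.comp, inferInstance, inferInstance, algebraMap k v.comp, ?_, norm_alg v⟩
      rw [Metric.denseRange_iff]
      intro x r hr
      obtain ⟨a, ha⟩ := dense_alg v x hr
      exact ⟨a, by rwa [dist_eq_norm]⟩)
    O hOR hOG hloc
    (fun S v hv M => by
      obtain ⟨L, _, _, _, E, g, h⟩ := hT v hv
      obtain ⟨w, hw⟩ := unb_conj' h hu0 M
      simp only [Bd, not_forall, not_le] at hw
      obtain ⟨i, hi⟩ := hw
      refine ⟨(((w⁻¹ * u0 * w : UA D) : Dˣ) : D), lt_of_lt_of_le hi (le_nb _ _ _), fun η' hη' => ?_⟩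
      exact exists_u hA B T S hv _ hη' hη)
  refine ⟨δ, hδ, fun x hx => ?_⟩
  have h1 := hδx x fun v hv l => hx v hv l
  refine AddSubgroup.closure_mono ?_ h1
  rintro _ ⟨u, hu, rfl⟩
  refine ⟨u, hu.1, fun v hv => ?_, rfl⟩
  refine (hu.2 v (Finset.mem_coe.2 hv)).1.sm ?_
  have : η ≤ ε / 2 := min_le_left _ _
  linarith

end main

end Vale.Agent.P011.H192.Span
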