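import Vale.Agent.P011.H192.Span.FF

/-!
# The span lemma over global function fields, at the places where the algebra splits
-/

open Module

set_option linter.unusedSectionVars false

namespace Vale.Agent.P011.H192.Span

open Vale.Agent.P011.H738 Vale.Agent.P011.H271 Vale.Agent.P011.H698 Vale.Agent.P011.H961

/-- The algebra `A` is split at every completion of `K` above the place `v` of `k`. -/
def SplV (k K A : Type) [Field k] [Field K] [Ring A] [Algebra k K] [Algebra K A] (n : ℕ)
    (v : Place k) : Prop :=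
  ∀ (L : Type) [NontriviallyNormedField L] [ProperSpace L] [IsUltrametricDist L] (φ : K →+* L),
    (∀ c : k, ‖φ (algebraMap k K c)‖ = v.abv c) →
      ∃ g : A →+* Matrix (Fin n) (Fin n) L, ∀ c : K, g (algebraMap K A c) = algebraMap L _ (φ c)

section

variable {k K A Ω : Type} [Field k] [GFF k] [Field K] [StarRing K] [Ring A] [StarRing A]
  [Algebra k K] [Algebra k A] [Algebra K A] [IsScalarTower k K A] [StarModule K A] {n N : ℕ}
  [Field Ω] [Algebra K Ω]

/-- The local model at a place where the algebra splits. -/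
theorem lm_of_splV (hk : IsGlobalFunctionField k) (hA : Anis k K A n) (hn : 3 ≤ n)
    (f : A →ₐ[K] Matrix (Fin n) (Fin n) Ω) (B : Basis (Fin N) k A) {v : Place k}
    (hv : SplV k K A n v) : ∃ (L : Type) (_ : NontriviallyNormedField L)
      (_ : ProperSpace L) (_ : IsUltrametricDist L) (E : Subgroup (Matrix (Fin n) (Fin n) L)ˣ)
      (g : A →+* Matrix (Fin n) (Fin n) L), LM f B v E g := by
  by_cases hs : Nonempty (K →ₐ[k] v.comp)
  · obtain ⟨φ⟩ := hs
    let _ := nnfPlace v
    obtain ⟨g, hg⟩ := hv v.comp (φ : K →+* v.comp) (fun c => by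
      change ‖φ (algebraMap k K c)‖ = _
      rw [φ.commutes, norm_alg])
    exact ⟨v.comp, nnfPlace v, inferInstance, inferInstance, ⊤, g,
      lm_split hA (by omega) f B hg⟩
  · rw [not_nonempty_iff] at hs
    obtain ⟨L, _, _, _, _, _, φ, h1, h2, h3, h4, h5, h6⟩ :=
      exists_quad_field hA.fixed hA.star_ne v hs
    obtain ⟨g, hg⟩ := hv L φ (fun c => by rw [h4, h5, norm_alg])
    obtain ⟨E, hE⟩ := lm_nonsplit hk hA hn f B h1 h2 h3 h4 h5 h6 hg
    exact ⟨L, inferInstance, inferInstance, inferInstance, E, g, hE⟩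

/-- Almost all places. -/
theorem exists_splV (hA : Anis k K A n) (hn : n ≠ 0) :
    ∃ T : Finset (Place k), ∀ v ∉ T, SplV k K A n v := by
  have hcen := hA.central
  have hsim := hA.simple
  obtain ⟨T, hT⟩ := exists_split_ae (k := k) (A := A) hA.fixed hn hA.finrank_eq
  exact ⟨T, fun v hv => fun L _ _ _ φ hφ => hT v hv L φ hφ⟩

end

section

variable {k K D Ω : Type} [Field k] [GFF k] [Field K] [StarRing K] [DivisionRing D] [StarRing D]
  [Algebra k K] [Algebra k D] [Algebra K D] [IsScalarTower k K D] [StarModule K D] {n N : ℕ}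
  [Field Ω] [Algebra K Ω]

/-- **The span lemma**, `T` any finite set of places containing those where `D` is not split. -/
theorem span_ffs (hk : IsGlobalFunctionField k) (hA : Anis k K D n) (hn : 3 ≤ n)
    (f : D →ₐ[K] Matrix (Fin n) (Fin n) Ω) (B : Basis (Fin N) k D) (T : Finset (Place k))
    (hT : ∀ v ∉ T, SplV k K D n v) {ε : ℝ} (hε : 0 < ε) :
    ∃ δ > 0, ∀ x : D, (∀ v ∈ T, Sm B v δ x) →
      x ∈ AddSubgroup.closure
        {d : D | ∃ u : D, u * star u = 1 ∧ (∀ v ∈ T, Sm B v ε (u - 1)) ∧ d = u - 1} :=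
  span_ff hA (by omega) f B T (fun _ hv => lm_of_splV hk hA hn f B (hT _ hv)) hε

end

end Vale.Agent.P011.H192.Span
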