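import Vale.Agent.P011.H192.Span.Str
import Vale.Agent.P011.H271.KSF

/-!
# The integral closure of `F_p[h]` in a global function field
-/

set_option linter.unusedSectionVars false

namespace Vale.Agent.P011.H192.Span

open Polynomial Vale.Agent.P011.H271 Vale.Agent.P011.H738

section

variable {k : Type} [Field k] [GFF k]

/-- The valuation criterion for integrality. -/
theorem integral_of_places {R : Type} [CommRing R] [Algebra R k] (x : k)
    (hx : ∀ v : Place k, (∀ r : R, v.abv (algebraMap R k r) ≤ 1) → v.abv x ≤ 1) :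
    IsIntegral R x := by
  by_contra hcon
  let B : Subring k := (integralClosure R k).toSubring
  have hxB : x ∉ B := hcon
  have : IsIntegrallyClosedIn B k :=
    inferInstanceAs (IsIntegrallyClosedIn (integralClosure R k) k)
  obtain ⟨V, hBV, hxV⟩ := Subring.exists_le_valuationSubring_of_isIntegrallyClosedIn hxB
  have hV : V ≠ ⊤ := by
    rintro rfl; exact hxV (ValuationSubring.mem_top _)
  obtain ⟨v, hv⟩ := toPl_surjective (k := k) ⟨V, hV⟩
  have hmem : ∀ y : k, y ∈ V ↔ v.abv y ≤ 1 := by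
    intro y
    have h1 : (toPl v).1 = V := by rw [hv]
    rw [← h1, ← plV_le_one]
    rfl
  refine hxV ((hmem x).2 (hx v fun r => (hmem _).1 (hBV ?_)))
  exact (integralClosure R k).algebraMap_mem r

/-- Integral elements are integral at the places. -/
theorem abv_le_of_integral {R : Type} [CommRing R] [Algebra R k] {x : k} (hx : IsIntegral R x)
    (v : Place k) (hv : ∀ r : R, v.abv (algebraMap R k r) ≤ 1) : v.abv x ≤ 1 := by
  let V : ValuationSubring k := (plV v).valuationSubring
  have hmem : ∀ y : k, y ∈ V ↔ v.abv y ≤ 1 := fun y => by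
    rw [← plV_le_one]
    rfl
  let f : R →+* V := (algebraMap R k).codRestrict V.toSubring fun r => (hmem _).2 (hv r)
  have h1 : IsIntegral V x := by
    let _ : Algebra R V := f.toAlgebra
    have : IsScalarTower R V k := IsScalarTower.of_algebraMap_eq (fun _ => rfl)
    exact hx.tower_top
  obtain ⟨y, hy⟩ := IsIntegrallyClosed.isIntegral_iff.1 h1
  rw [← hmem, ← hy]
  exact y.2

end

section

variable {p : ℕ} [Fact p.Prime] {k : Type} [Field k] [GFF k] [Algebra (ZMod p)[X] k]
  {ψ : RatFunc (ZMod p) →+* k}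

theorem loc_data (hψ : IsStr (ZMod p) k ψ)
    (halg : ∀ r : (ZMod p)[X], algebraMap (ZMod p)[X] k r = ψ (algebraMap _ _ r)) :
    ∃ O : Set k, (∀ r : (ZMod p)[X], ∀ c ∈ O, algebraMap (ZMod p)[X] k r * c ∈ O) ∧
      (∃ G : Finset k, ∀ c ∈ O, c ∈ Submodule.span (ZMod p)[X] (G : Set k)) ∧
      ∀ π : (ZMod p)[X], Prime π → ∃ S : Finset (Place k),
        (∀ v ∈ S, v.abv (algebraMap (ZMod p)[X] k π) < 1 ∧
          ∀ r : (ZMod p)[X], v.abv (algebraMap (ZMod p)[X] k r) ≤ 1) ∧
        ∀ c : k, (∀ v ∈ S, v.abv c ≤ 1) →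
          ∃ m : (ZMod p)[X], ¬ π ∣ m ∧ algebraMap (ZMod p)[X] k m * c ∈ O := by
  classical
  let _ : Algebra (RatFunc (ZMod p)) k := ψ.toAlgebra
  have : FiniteDimensional (RatFunc (ZMod p)) k := hψ.1
  have : Algebra.IsSeparable (RatFunc (ZMod p)) k := hψ.2
  have : IsScalarTower (ZMod p)[X] (RatFunc (ZMod p)) k := IsScalarTower.of_algebraMap_eq halg
  have hinj : Function.Injective (algebraMap (ZMod p)[X] k) := by
    rw [IsScalarTower.algebraMap_eq (ZMod p)[X] (RatFunc (ZMod p)) k]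
    exact (algebraMap (RatFunc (ZMod p)) k).injective.comp
      (IsFractionRing.injective (ZMod p)[X] (RatFunc (ZMod p)))
  have hfin : Module.Finite (ZMod p)[X] (integralClosure (ZMod p)[X] k) :=
    IsIntegralClosure.finite (ZMod p)[X] (RatFunc (ZMod p)) k (integralClosure (ZMod p)[X] k)
  refine ⟨integralClosure (ZMod p)[X] k, fun r c hc =>
    mul_mem ((integralClosure (ZMod p)[X] k).algebraMap_mem r) hc, ?_, ?_⟩
  · obtain ⟨G, hG⟩ := hfin.fg_top
    refine ⟨G.image (integralClosure (ZMod p)[X] k).val.toLinearMap, fun c hc => ?_⟩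
    have h1 : (⟨c, hc⟩ : integralClosure (ZMod p)[X] k) ∈ Submodule.span (ZMod p)[X]
        (G : Set (integralClosure (ZMod p)[X] k)) := by rw [hG]; trivial
    have h2 := Submodule.mem_map_of_mem
      (f := (integralClosure (ZMod p)[X] k).val.toLinearMap) h1
    rw [Submodule.map_span] at h2
    rw [Finset.coe_image]
    exact h2
  · intro π hπ
    have hπ0 : algebraMap (ZMod p)[X] k π ≠ 0 := fun h =>
      hπ.ne_zero (hinj (by rw [h, map_zero]))
    have hSfin : {v : Place k | v.abv (algebraMap (ZMod p)[X] k π) < 1 ∧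
        ∀ r : (ZMod p)[X], v.abv (algebraMap (ZMod p)[X] k r) ≤ 1}.Finite :=
      (place_finite hπ0).subset fun v hv => ne_of_lt hv.1
    refine ⟨hSfin.toFinset, fun v hv => hSfin.mem_toFinset.1 hv, fun c hc => ?_⟩
    obtain ⟨y, hy0, hy⟩ : ∃ y : (ZMod p)[X], y ≠ 0 ∧
        IsIntegral (ZMod p)[X] (algebraMap (ZMod p)[X] k y * c) := by
      have h1 : IsAlgebraic (ZMod p)[X] c :=
        (IsFractionRing.isAlgebraic_iff (ZMod p)[X] (RatFunc (ZMod p)) k).2
          (Algebra.IsAlgebraic.isAlgebraic c)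
      obtain ⟨y, hy0, hy⟩ := h1.exists_integral_multiple
      exact ⟨y, hy0, by rwa [← Algebra.smul_def]⟩
    obtain ⟨n, m, hm, hym⟩ : ∃ (n : ℕ) (m : (ZMod p)[X]), ¬ π ∣ m ∧ y = π ^ n * m := by
      have hfm : FiniteMultiplicity π y := FiniteMultiplicity.of_not_isUnit hπ.not_isUnit hy0
      obtain ⟨m, hm1, hm2⟩ := hfm.exists_eq_pow_mul_and_not_dvd
      exact ⟨_, m, hm2, hm1⟩
    refine ⟨m, hm, integral_of_places _ fun v hv => ?_⟩
    by_cases hvπ : v.abv (algebraMap (ZMod p)[X] k π) < 1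
    · have h1 := hc v (hSfin.mem_toFinset.2 ⟨hvπ, hv⟩)
      rw [map_mul]
      exact mul_le_one₀ (hv m) (v.abv.nonneg _) h1
    · have h1 : v.abv (algebraMap (ZMod p)[X] k π) = 1 := le_antisymm (hv π) (not_lt.1 hvπ)
      have h2 : v.abv (algebraMap (ZMod p)[X] k y * c) ≤ 1 := abv_le_of_integral hy v hv
      have h3 : algebraMap (ZMod p)[X] k y * c =
          algebraMap (ZMod p)[X] k π ^ n * (algebraMap (ZMod p)[X] k m * c) := by
        rw [hym, map_mul, map_pow, mul_assoc]
      rwa [h3, map_mul, map_pow, h1, one_pow, one_mul] at h2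

end

end Vale.Agent.P011.H192.Span
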