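import Vale.Agent.P011.H519.Odd.SpanW
import Vale.Agent.P011.H698.DensFF

/-!
# Unitary elements near one at a finite set of places of a function field
-/

open Module

set_option linter.unusedSectionVars false

namespace Vale.Agent.P011.H192.Span

open Vale.Agent.P011.H738 Vale.Agent.P011.H271 Vale.Agent.P011.H698
  Vale.Agent.P011.H505.Span Vale.Agent.P011.H519.Odd

variable {k D : Type} [Field k] [GFF k] [DivisionRing D] [StarRing D] [Algebra k D] {N : ℕ}
  (B : Basis (Fin N) k D)

/-- The unitary elements `u` with `u - 1` and `star u - 1` bounded by `η` at the places of `T`. -/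
def WT (T : Set (Place k)) (η : ℝ) : Set D :=
  {u | u * star u = 1 ∧ ∀ v ∈ T, Bd B v η (u - 1) ∧ Bd B v η (star u - 1)}

variable {B} {T : Set (Place k)} {η : ℝ}

theorem star_mem_WT {u : D} (hu : u ∈ WT B T η) : star u ∈ WT B T η :=
  ⟨by rw [star_star]; exact star_mul_of hu.1, fun v hv =>
    ⟨(hu.2 v hv).2, by rw [star_star]; exact (hu.2 v hv).1⟩⟩

theorem mul_mem_WT {C : Place k → ℝ} (hη : 0 ≤ η)
    (hm : ∀ v c c' x y, 0 ≤ c → 0 ≤ c' → Bd B v c x → Bd B v c' y → Bd B v (C v * c * c') (x * y))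
    (hC : ∀ v ∈ T, C v * η ≤ 1) {u w : D} (hu : u ∈ WT B T η) (hw : w ∈ WT B T η) :
    u * w ∈ WT B T η := by
  have key : ∀ v ∈ T, ∀ x y : D, Bd B v η (x - 1) → Bd B v η (y - 1) →
      Bd B v η (x * y - 1) := by
    intro v hv x y hx hy
    have e : x * y - 1 = (x - 1) * (y - 1) + ((x - 1) + (y - 1)) := by noncomm_ring
    rw [e]
    refine ((hm v η η _ _ hη hη hx hy).mono ?_).add (hx.add hy)
    calc C v * η * η ≤ 1 * η := mul_le_mul_of_nonneg_right (hC v hv) hη
      _ = η := one_mul η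
  refine ⟨?_, fun v hv => ⟨key v hv _ _ (hu.2 v hv).1 (hw.2 v hv).1, ?_⟩⟩
  · rw [star_mul, mul_assoc, ← mul_assoc w, hw.1, one_mul, hu.1]
  · rw [star_mul]
    exact key v hv _ _ (hw.2 v hv).2 (hu.2 v hv).2

/-- A Neumann series argument: the inverse of `1 + z` is bounded if `z` is small. -/
theorem inv_bd {v : Place k} {C c : ℝ} (hC : 1 ≤ C)
    (hm : ∀ c c' x y, 0 ≤ c → 0 ≤ c' → Bd B v c x → Bd B v c' y → Bd B v (C * c * c') (x * y))
    (h1 : Bd B v C (1 : D)) {z w : D} (hw : w = 1 - z * w) (hc0 : 0 ≤ c) (hz : Bd B v c z)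
    (hc : C * c < 1) : Bd B v C w := by
  by_contra hcon
  simp only [Bd, not_forall, not_le] at hcon
  obtain ⟨i, hi⟩ := hcon
  have : Nonempty (Fin N) := ⟨i⟩
  obtain ⟨i0, hi0⟩ := Finite.exists_max fun j => v.abv (B.repr w j)
  set m : ℝ := v.abv (B.repr w i0) with hmdef
  have hmC : C < m := lt_of_lt_of_le hi (hi0 i)
  have hm0 : 0 < m := by linarith
  have h2 : Bd B v m w := fun j => hi0 j
  have h3 := hm c m z w hc0 hm0.le hz h2
  have h4 : m ≤ max C (C * c * m) := by
    have h5 : B.repr w i0 = B.repr (1 : D) i0 + (- B.repr (z * w) i0) := by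
      conv_lhs => rw [hw]
      rw [map_sub, Finsupp.sub_apply, sub_eq_add_neg]
    calc m = v.abv (B.repr w i0) := rfl
      _ ≤ max (v.abv (B.repr (1 : D) i0)) (v.abv (- B.repr (z * w) i0)) := by
          rw [h5]; exact v.nonarch _ _
      _ ≤ max C (C * c * m) := by
          refine max_le_max (h1 i0) ?_
          rw [AbsoluteValue.map_neg]
          exact h3 i0
  rcases le_max_iff.1 h4 with h5 | h5
  · linarith
  · nlinarith

/-- The Cayley elements of `c + y`, `c` large at `v`. -/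
theorem cay_near (hst : ∀ (c : k) (x : D), star (c • x) = c • star x) {ω : D}
    (hω : star ω = 1 - ω) (hne : ω ≠ 1 - ω) (v : Place k) {y : D} (hy : star y = y) {η : ℝ}
    (hη : 0 < η) :
    ∃ M : ℝ, ∀ c : k, M < v.abv c →
      Bd B v η (cay ω (algebraMap k D c + y) - 1) ∧
      Bd B v η (star (cay ω (algebraMap k D c + y)) - 1) := by
  obtain ⟨C, hC1, -, hCm, hCs, hC0⟩ := exists_const B hst
  obtain ⟨G, hG1, hG⟩ := exists_bd (B := B) (v := v) (y + (1 - ω))
  obtain ⟨κ, hκ1, hκ⟩ := exists_bd (B := B) (v := v) (ω - (1 - ω))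
  have hC1 := hC1 v
  have hCp : 0 < C v := by linarith
  have hκp : 0 < κ := by linarith
  refine ⟨max (C v * G) (C v * C v * κ * C v / η), fun c hc => ?_⟩
  have hM0 : 0 ≤ C v * G := by positivity
  have hcM1 : C v * G < v.abv c := lt_of_le_of_lt (le_max_left _ _) hc
  have hcM2 : C v * C v * κ * C v / η < v.abv c := lt_of_le_of_lt (le_max_right _ _) hc
  have hc0 : 0 < v.abv c := lt_of_le_of_lt hM0 hcM1
  have hcne : c ≠ 0 := by rintro rfl; rw [map_zero] at hc0; exact lt_irrefl _ hc0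
  have hs : star (algebraMap k D c + y) = algebraMap k D c + y := by
    rw [star_add, hy, Algebra.algebraMap_eq_smul_one, hst, star_one]
  have hden := cay_den hω hne hs
  set z : D := c⁻¹ • (y + (1 - ω)) with hz
  have hfac : algebraMap k D c + y + (1 - ω) = c • (1 + z) := by
    rw [hz, smul_add, smul_smul, mul_inv_cancel₀ hcne, one_smul, Algebra.algebraMap_eq_smul_one]
    abel
  have h1z : 1 + z ≠ 0 := by
    intro h
    apply hden
    rw [hfac, h, smul_zero]
  have hzb : Bd B v ((v.abv c)⁻¹ * G) z := by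
    refine hG.smul (le_of_eq ?_)
    rw [map_inv₀]
  have hw : (1 + z)⁻¹ = 1 - z * (1 + z)⁻¹ := by
    have : (1 + z) * (1 + z)⁻¹ = 1 := mul_inv_cancel₀ h1z
    rw [add_mul, one_mul] at this
    rw [eq_sub_iff_add_eq]
    exact this
  have hwb : Bd B v (C v) (1 + z)⁻¹ := by
    refine inv_bd hC1 (hCm v) (hC0 v) hw (by positivity) hzb ?_
    rw [← mul_assoc, mul_comm (C v), mul_assoc, inv_mul_lt_iff₀ hc0, mul_one]
    exact hcM1
  have hinv : (algebraMap k D c + y + (1 - ω))⁻¹ = c⁻¹ • (1 + z)⁻¹ := by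
    rw [hfac, smul_inv₀]
  have hb1 : Bd B v (C v * κ * ((v.abv c)⁻¹ * C v)) (cay ω (algebraMap k D c + y) - 1) := by
    rw [cay, cay_sub hden, hinv]
    refine hCm v κ _ _ _ hκp.le (by positivity) hκ (hwb.smul (le_of_eq ?_))
    rw [map_inv₀]
  have hsm : C v * (C v * κ * ((v.abv c)⁻¹ * C v)) ≤ η := by
    have e : C v * (C v * κ * ((v.abv c)⁻¹ * C v)) = (C v * C v * κ * C v) / v.abv c := by
      field_simp
    rw [e, div_le_iff₀ hc0]
    rw [div_lt_iff₀ hη] at hcM2
    linarith
  refine ⟨hb1.mono ?_, ?_⟩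
  · refine le_trans ?_ hsm
    have : 0 ≤ C v * κ * ((v.abv c)⁻¹ * C v) := by positivity
    nlinarith
  · have e : star (cay ω (algebraMap k D c + y)) - 1 =
        star (cay ω (algebraMap k D c + y) - 1) := by rw [star_sub, star_one]
    rw [e]
    exact (hCs v _ _ (by positivity) hb1).mono hsm

omit [DivisionRing D] [StarRing D] [Algebra k D] in
/-- An element which is large at finitely many places. -/
theorem exists_large (S : Finset (Place k)) (M : ℝ) : ∃ c : k, ∀ v ∈ S, M < v.abv c := by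
  classical
  have h1 : ∀ v : Place k, ∃ x : k, M + 1 < v.abv x := by
    intro v
    obtain ⟨x, hx⟩ := v.normalized.2.1
    have hx' : v.abv x = qq v := hx
    have hq : (1 : ℝ) < qq v := one_lt_qq' v
    obtain ⟨n, hn⟩ := pow_unbounded_of_one_lt (M + 1) hq
    exact ⟨x ^ n, by rw [map_pow, hx']; exact hn⟩
  choose x hx using h1
  obtain ⟨a, ha⟩ := place_weak S (fun v => algebraMap k (v : Place k).comp (x v)) one_pos
  refine ⟨a, fun v hv => ?_⟩
  have h2 := ha ⟨v, hv⟩
  rw [← map_sub, norm_alg] at h2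
  have h3 := hx v
  have h4 : v.abv (x v) ≤ v.abv a + v.abv (a - x v) := by
    have h5 := v.abv.add_le a (-(a - x v))
    rw [AbsoluteValue.map_neg] at h5
    have e : a + -(a - x v) = x v := by ring
    rwa [e] at h5
  change v.abv (a - x v) < 1 at h2
  linarith

/-- The Cayley hypothesis. -/
theorem cay_WT (hst : ∀ (c : k) (x : D), star (c • x) = c • star x) {ω : D}
    (hω : star ω = 1 - ω) (hne : ω ≠ 1 - ω) (hc : ∀ x, ω * x = x * ω) {η : ℝ} (hη : 0 < η)
    (T : Finset (Place k)) (M0 : ℝ) {y : D} (hy : star y = y) :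
    ∃ c : k, (∀ v ∈ T, M0 < v.abv c) ∧ cay ω (algebraMap k D c) ∈ WT B T η ∧
      cay ω (algebraMap k D c + y) ∈ WT B T η := by
  classical
  choose M hM using fun v : Place k => cay_near (B := B) hst hω hne v hy hη
  choose M' hM' using fun v : Place k => cay_near (B := B) hst hω hne v (star_zero D) hη
  let b : Place k → ℝ := fun v => max M0 (max (M v) (M' v))
  obtain ⟨c, hcl⟩ := exists_large T (∑ v ∈ T, |b v|)
  have hcb : ∀ v ∈ T, b v < v.abv c := fun v hv =>
    lt_of_le_of_lt ((le_abs_self _).trans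
      (Finset.single_le_sum (f := fun v => |b v|) (fun _ _ => abs_nonneg _) hv)) (hcl v hv)
  have hsc : star (algebraMap k D c) = algebraMap k D c := by
    rw [Algebra.algebraMap_eq_smul_one, hst, star_one]
  refine ⟨c, fun v hv => lt_of_le_of_lt (le_max_left _ _) (hcb v hv), ?_, ?_⟩
  · refine ⟨cay_unitary hω hc hsc (cay_den hω hne hsc), fun v hv => ?_⟩
    have h := hM' v c (lt_of_le_of_lt ((le_max_right _ _).trans (le_max_right _ _)) (hcb v hv))
    rwa [add_zero] at h
  · have hs : star (algebraMap k D c + y) = algebraMap k D c + y := by rw [star_add, hsc, hy]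
    refine ⟨cay_unitary hω hc hs (cay_den hω hne hs), fun v hv => ?_⟩
    exact hM v c (lt_of_le_of_lt ((le_max_left _ _).trans (le_max_right _ _)) (hcb v hv))

end Vale.Agent.P011.H192.Span
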