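import Vale.Agent.P011.H192.Span.FFSplit
import Vale.Agent.P011.H271.Odd.TopFF
import Vale.Agent.P011.H496.Spl.SplG

/-!
# The span lemma over global function fields, in the topology of `D` at the places of `T`
-/

open Module Filter Topology

set_option linter.unusedSectionVars false

namespace Vale.Agent.P011.H192.Span

open Vale.Agent.P011.H738 Vale.Agent.P011.H271 Vale.Agent.P011.H698 Vale.Agent.P011.H961
open Vale.Agent.P011.H775.Top Vale.Agent.P011.H271.Odd
open Vale.Agent.P011.H496.Spl (SplAt)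

variable {k K D Ω : Type} [Field k] [GFF k] [Field K] [StarRing K] [DivisionRing D] [StarRing D]
  [Algebra k K] [Algebra k D] [Algebra K D] [IsScalarTower k K D] [StarModule K D] {n N : ℕ}
  [Field Ω] [Algebra K Ω]

/-- **The differences `u - 1` with `u` unitary near `1` generate a neighbourhood of zero.** -/
theorem hspan_ff (hk : IsGlobalFunctionField k) (hA : Anis k K D n) (hn : 3 ≤ n)
    (f : D →ₐ[K] Matrix (Fin n) (Fin n) Ω) (B : Basis (Fin N) k D) {T : Finset (Place k)}
    [Nonempty T] (hTS : ∀ v, v ∉ T → SplAt K D n v) :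
    letI := topD B (af T)
    ∀ O ∈ 𝓝 (1 : D), (AddSubgroup.closure {x : D | ∃ u ∈ O, u * star u = 1 ∧
      x = u - 1} : Set D) ∈ 𝓝 (0 : D) := by
  letI := topD B (af T)
  intro O hO
  obtain ⟨ε, hε, h⟩ := (ev_iff B (P := fun x => x ∈ O)).mp hO
  obtain ⟨δ, hδ, h2⟩ := span_ffs hk hA hn f B T hTS hε
  refine (ev_iff B (P := fun x => x ∈ (AddSubgroup.closure {x : D | ∃ u ∈ O, u * star u = 1 ∧
      x = u - 1} : Set D))).mpr ⟨δ, hδ, fun x hx => ?_⟩
  rw [sub_zero] at hx
  refine AddSubgroup.closure_mono ?_ (h2 x hx)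
  rintro _ ⟨u, hu, hu1, rfl⟩
  exact ⟨u, h u hu1, hu, rfl⟩

end Vale.Agent.P011.H192.Span
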