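import Vale.Agent.P011.H192.Span.Near
import Vale.Agent.P011.H192.Span.Alg

/-!
# A separating element in the ring generated by the unitary elements near one
-/

open Module

set_option linter.unusedSectionVars false

namespace Vale.Agent.P011.H192.Span

open Polynomial Vale.Agent.P011.H738 Vale.Agent.P011.H271 Vale.Agent.P011.H698
  Vale.Agent.P011.H505.Span Vale.Agent.P011.H519.Odd

/-- There are places. -/
theorem exists_pl (k : Type) [Field k] [GFF k] : Nonempty (Place k) := by
  obtain ⟨p, _, _, F, iF, iFin, φ, hφ⟩ := exists_char k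
  have hF : CharP F p := (φ.comp RatFunc.C).charP (φ.comp RatFunc.C).injective p
  let _ : Algebra (ZMod p) k := ZMod.algebra k p
  let _ : Algebra (ZMod p) F := ZMod.algebra F p
  let _ : Algebra F k := (φ.comp RatFunc.C).toAlgebra
  let _ : Algebra (RatFunc F) k := φ.toAlgebra
  have : IsScalarTower F (RatFunc F) k := IsScalarTower.of_algebraMap_eq' rfl
  have : IsScalarTower (ZMod p) F k := IsScalarTower.of_algebraMap_eq' (Subsingleton.elim _ _)
  by_contra hcon
  rw [not_nonempty_iff] at hcon
  have h1 : IsIntegral (ZMod p) (φ RatFunc.X) := integral_of_places _ fun v => hcon.elim v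
  have h4 : IsAlgebraic F (φ RatFunc.X) := (isAlgebraic_iff_isIntegral.2 h1).tower_top F
  have h5 : IsAlgebraic F (RatFunc.X : RatFunc F) := by
    have := (isAlgebraic_algebraMap_iff (R := F) (A := k) (a := (RatFunc.X : RatFunc F))
      (FaithfulSMul.algebraMap_injective (RatFunc F) k)).1
    exact this h4
  exact RatFunc.transcendental_X h5

section omega

variable {k K D : Type} [Field k] [Field K] [StarRing K] [DivisionRing D] [StarRing D]
  [Algebra k K] [Algebra k D] [Algebra K D] [IsScalarTower k K D] [StarModule K D] {n : ℕ}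

/-- An element of trace one. -/
theorem exists_kappa (hA : Anis k K D n) : ∃ κ : K, star κ = 1 - κ ∧ κ ≠ 1 - κ := by
  obtain ⟨x, hx⟩ := hA.star_ne
  have key : ∀ y : K, star y ≠ y → y + star y ≠ 0 → ∃ κ : K, star κ = 1 - κ ∧ κ ≠ 1 - κ := by
    intro y hy h0
    have hs : star (y + star y) = y + star y := by rw [star_add, star_star, add_comm]
    refine ⟨y / (y + star y), ?_, ?_⟩
    · rw [star_div₀, hs]
      field_simp
      ring
    · intro h
      apply hy
      have h1 : y / (y + star y) * (y + star y) = (1 - y / (y + star y)) * (y + star y) := by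
        rw [← h]
      rw [sub_mul, div_mul_cancel₀ _ h0, one_mul, add_sub_cancel_left] at h1
      exact h1.symm
  by_cases h0 : x + star x = 0
  · refine key (1 + x) ?_ ?_
    · rw [star_add, star_one]
      intro h
      exact hx (add_left_cancel h)
    · rw [star_add, star_one]
      have e : 1 + x + (1 + star x) = 2 + (x + star x) := by ring
      rw [e, h0, add_zero]
      intro h2
      apply hx
      have h3 : star x = -x := by rw [eq_neg_iff_add_eq_zero, add_comm]; exact h0
      have h4 : x + x = 0 := by
        have : (2 : K) * x = 0 := by rw [h2, zero_mul]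
        rwa [two_mul] at this
      rw [h3]
      exact (eq_neg_of_add_eq_zero_left h4).symm
  · exact key x hx h0

/-- A central symmetric element is a scalar. -/
theorem scalar_of_central (hA : Anis k K D n) {z : D} (hz : ∀ x, z * x = x * z)
    (hs : star z = z) : ∃ c : k, algebraMap k D c = z := by
  have hcen := hA.central
  have h1 : z ∈ Subalgebra.center K D := Subalgebra.mem_center_iff.2 fun x => (hz x).symm
  obtain ⟨c, hc⟩ := Algebra.mem_bot.1 (hcen.out h1)
  have h2 : star c = c := by
    apply (algebraMap K D).injective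
    rw [algebraMap_star_comm, hc, hs]
  obtain ⟨d, rfl⟩ := (hA.fixed c).1 h2
  exact ⟨d, by rw [← hc, ← IsScalarTower.algebraMap_apply]⟩

end omega

section main

variable {k K D : Type} [Field k] [GFF k] [Field K] [StarRing K] [DivisionRing D] [StarRing D]
  [Algebra k K] [Algebra k D] [Algebra K D] [IsScalarTower k K D] [StarModule K D] {n N : ℕ}
  {B : Basis (Fin N) k D} {p : ℕ} [Fact p.Prime] [CharP k p]

/-- A transcendental element `g` of `k` which is a sum of two elements of `WT`. -/
theorem exists_g [Algebra (ZMod p) k] (hA : Anis k K D n) {κ : K} (hκ : star κ = 1 - κ)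
    (hne : κ ≠ 1 - κ) {η : ℝ} (hη : 0 < η) (T : Finset (Place k)) :
    ∃ g : k, Transcendental (ZMod p) g ∧
      algebraMap k D g ∈ Subring.closure (WT B (T : Set (Place k)) η) := by
  classical
  have hst := H519.star_smul_of_anis hA
  obtain ⟨v0⟩ := exists_pl k
  set ω : D := algebraMap K D κ with hωd
  have hω : star ω = 1 - ω := by
    rw [hωd, ← algebraMap_star_comm, hκ, map_sub, map_one]
  have hωne : ω ≠ 1 - ω := by
    intro h
    apply hne
    apply (algebraMap K D).injective
    rw [map_sub, map_one]
    exact h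
  have hωc : ∀ x, ω * x = x * ω := fun x => Algebra.commutes κ x
  obtain ⟨N', hN'⟩ : ∃ N' : k, algebraMap k K N' = κ * star κ :=
    (hA.fixed _).1 (by rw [star_mul, star_star, mul_comm])
  obtain ⟨Δ, hΔ⟩ : ∃ Δ : k, algebraMap k K Δ = (κ - star κ) * (κ - star κ) :=
    (hA.fixed _).1 (by rw [star_mul, star_sub, star_star]; ring)
  have hΔ0 : Δ ≠ 0 := by
    rintro rfl
    rw [map_zero, eq_comm, mul_self_eq_zero, hκ, sub_eq_zero] at hΔ
    exact hne hΔ
  obtain ⟨c, hcl, hc1, -⟩ := cay_WT (B := B) hst hω hωne hωc hη (insert v0 T)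
    (1 + v0.abv N' + v0.abv Δ) (star_zero D)
  have hcv := hcl v0 (Finset.mem_insert_self _ _)
  have hW : cay ω (algebraMap k D c) ∈ WT B (T : Set (Place k)) η :=
    ⟨hc1.1, fun v hv => hc1.2 v (Finset.mem_coe.2 (Finset.mem_insert_of_mem (Finset.mem_coe.1 hv)))⟩
  -- the element of `K`
  set x : K := algebraMap k K c + κ with hx
  have hsx : star x = algebraMap k K c + (1 - κ) := by
    rw [hx, star_add, (hA.fixed _).2 ⟨c, rfl⟩, hκ]
  have hsx0 : star x ≠ 0 := by
    intro h
    have h1 : x = 0 := by rw [← star_star x, h, star_zero]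
    apply hne
    rw [hsx] at h
    rw [hx] at h1
    have := h1.trans h.symm
    exact add_left_cancel this
  have hx0 : x ≠ 0 := by
    intro h
    apply hsx0
    rw [h, star_zero]
  have hcay : cay ω (algebraMap k D c) = algebraMap K D (x * (star x)⁻¹) := by
    rw [cay, map_mul, map_inv₀, hsx, hx]
    simp only [map_add, map_sub, map_one, ← IsScalarTower.algebraMap_apply, hωd]
  obtain ⟨g, hg⟩ : ∃ g : k, algebraMap k K g = x * (star x)⁻¹ + star (x * (star x)⁻¹) :=
    (hA.fixed _).1 (by rw [star_add, star_star, add_comm])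
  have hgrel : (g - 2) * (c ^ 2 + c + N') = Δ := by
    apply (algebraMap k K).injective
    rw [map_mul, map_sub, map_add, map_add, map_pow, hg, hN', hΔ, map_ofNat, star_mul, star_inv₀,
      star_star]
    have e1 : algebraMap k K c ^ 2 + algebraMap k K c + κ * star κ = x * star x := by
      rw [hsx, hx, hκ]; ring
    have e2 : κ - star κ = x - star x := by rw [hsx, hx, hκ]; ring
    rw [e1, e2]
    field_simp
    ring
  have hc0 : 1 < v0.abv c := by
    have := v0.abv.nonneg N'
    have := v0.abv.nonneg Δ
    linarith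
  have hcN : v0.abv (c + N') ≤ v0.abv c := by
    refine (v0.nonarch _ _).trans (max_le le_rfl ?_)
    have := v0.abv.nonneg Δ
    linarith
  have hq : v0.abv (c ^ 2 + c + N') = v0.abv c ^ 2 := by
    apply le_antisymm
    · rw [add_assoc]
      refine (v0.nonarch _ _).trans (max_le (by rw [map_pow]) (hcN.trans ?_))
      nlinarith
    · have h1 := v0.nonarch (c ^ 2 + c + N') (-(c + N'))
      have e : c ^ 2 + c + N' + -(c + N') = c ^ 2 := by ring
      rw [e, map_pow, AbsoluteValue.map_neg] at h1
      rcases le_max_iff.1 h1 with h2 | h2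
      · exact h2
      · exfalso
        have := h2.trans hcN
        nlinarith
  have hg2 : g - 2 ≠ 0 := by
    intro h
    rw [h, zero_mul] at hgrel
    exact hΔ0 hgrel.symm
  have hgv : v0.abv (g - 2) < 1 := by
    have h1 := congrArg v0.abv hgrel
    rw [map_mul, hq] at h1
    have h2 : 0 ≤ v0.abv (g - 2) := v0.abv.nonneg _
    have h3 := v0.abv.nonneg N'
    by_contra hcon
    rw [not_lt] at hcon
    have h4 : v0.abv c ^ 2 ≤ v0.abv Δ := by rw [← h1]; nlinarith [sq_nonneg (v0.abv c)]
    nlinarith
  have htr : Transcendental (ZMod p) (g - 2) := trans_of_abv (p := p) hg2 hgv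
  refine ⟨g, fun h => htr ?_, ?_⟩
  · have h2 : IsAlgebraic (ZMod p) (2 : k) := by
      have := isAlgebraic_algebraMap (R := ZMod p) (A := k) 2
      rwa [map_ofNat] at this
    exact h.sub h2
  · rw [IsScalarTower.algebraMap_apply k K D, hg, map_add, ← hcay, algebraMap_star_comm, ← hcay]
    exact add_mem (Subring.subset_closure hW) (Subring.subset_closure (star_mem_WT hW))

/-- Polynomials in an element of a subring. -/
theorem poly_mem {A : Type} [Ring A] [Algebra (ZMod p)[X] A] (L : Subring A)
    (hX : algebraMap (ZMod p)[X] A X ∈ L) (r : (ZMod p)[X]) : algebraMap (ZMod p)[X] A r ∈ L := by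
  induction r using Polynomial.induction_on' with
  | add P Q hP hQ => rw [map_add]; exact add_mem hP hQ
  | monomial n a =>
    rw [← Polynomial.C_mul_X_pow_eq_monomial, map_mul, map_pow]
    refine mul_mem ?_ (pow_mem hX n)
    obtain ⟨m, rfl⟩ := ZMod.natCast_zmod_surjective a
    rw [map_natCast, map_natCast]
    exact natCast_mem L m

/-- **A separating element in the ring of the unitary elements near one.** -/
theorem exists_h (hA : Anis k K D n) {κ : K} (hκ : star κ = 1 - κ)
    (hne : κ ≠ 1 - κ) {η : ℝ} (hη : 0 < η) (T : Finset (Place k)) (t : k) :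
    ∃ s : k, s ≠ 0 ∧ algebraMap k D (s ^ p * t) ∈
      Subring.closure (WT B (T : Set (Place k)) η) := by
  classical
  let _ : Algebra (ZMod p) k := ZMod.algebra k p
  have hst := H519.star_smul_of_anis hA
  have hfd : FiniteDimensional k D := B.finiteDimensional_of_finite
  obtain ⟨g, hg, hgW⟩ := exists_g (p := p) (B := B) hA hκ hne hη T
  have hgp : Transcendental (ZMod p) (g ^ p) := fun h =>
    hg (h.of_pow (Fact.out : p.Prime).pos)
  let _ : Algebra (ZMod p)[X] k := (Polynomial.aeval (R := ZMod p) (g ^ p)).toRingHom.toAlgebra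
  have hX : algebraMap (ZMod p)[X] k X = g ^ p := Polynomial.aeval_X _
  let _ : Algebra (ZMod p)[X] D := ((algebraMap k D).comp (algebraMap (ZMod p)[X] k)).toAlgebra'
    fun c x => Algebra.commutes _ x
  have : IsScalarTower (ZMod p)[X] k D := IsScalarTower.of_algebraMap_eq (fun _ => rfl)
  have : Algebra.IsAlgebraic (ZMod p)[X] k := alg_of_trans (p := p) (by rw [hX]; exact hgp)
  have : Algebra.IsAlgebraic (ZMod p)[X] D := Algebra.IsAlgebraic.trans (ZMod p)[X] k D
  set ω : D := algebraMap K D κ with hωd
  have hω : star ω = 1 - ω := by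
    rw [hωd, ← algebraMap_star_comm, hκ, map_sub, map_one]
  have hωne : ω ≠ 1 - ω := by
    intro h
    apply hne
    apply (algebraMap K D).injective
    rw [map_sub, map_one]
    exact h
  have hωc : ∀ x, ω * x = x * ω := fun x => Algebra.commutes κ x
  obtain ⟨r, hr, hrt⟩ := genW (R := (ZMod p)[X]) (W := WT B (T : Set (Place k)) η) hω hωne hωc
    (fun y hy => by
      obtain ⟨c, -, h1, h2⟩ := cay_WT (B := B) hst hω hωne hωc hη T 0 hy
      exact ⟨algebraMap k D c, by rw [Algebra.algebraMap_eq_smul_one, hst, star_one], h1, h2⟩)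
    (poly_mem _ (by
      rw [IsScalarTower.algebraMap_apply (ZMod p)[X] k D, hX, map_pow]
      exact pow_mem hgW p)) (algebraMap k D t)
  refine ⟨Polynomial.aeval g r, ?_, ?_⟩
  · intro h
    exact hr (transcendental_iff.1 hg r h)
  · have h1 : algebraMap (ZMod p)[X] k r = (Polynomial.aeval g r) ^ p := by
      change Polynomial.aeval (g ^ p) r = _
      rw [← map_pow, ← ZMod.expand_card, Polynomial.expand_aeval]
    rw [map_mul, ← h1, ← IsScalarTower.algebraMap_apply]
    exact hrt

end main

end Vale.Agent.P011.H192.Span
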