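import Vale.Agent.P011.H271.GF

/-!
# A separating element of the form `s ^ p * t`

If `k` is finite and separable over `F(t)`, `F` finite of characteristic `p`, and `s ≠ 0`, then
`k` is finite and separable over `F_p(s ^ p * t)`.
-/

set_option linter.unusedSectionVars false

namespace Vale.Agent.P011.H192.Span

open Polynomial IntermediateField Vale.Agent.P011.H271 KaehlerDifferential

section der

variable {p : ℕ} {F k : Type} [Field F] [Finite F] [Field k] [CharP k p] {φ : RatFunc F →+* k}

/-- A derivation of characteristic `p` which kills `s ^ p * t` kills `t`. -/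
theorem der_t {A M : Type*} [CommRing A] [Algebra A k] [AddCommGroup M] [Module k M] [Module A M]
    (D : Derivation A k M) {s t : k} (hs : s ≠ 0) (h : D (s ^ p * t) = 0) : D t = 0 := by
  rw [D.leibniz, D.leibniz_pow, ← Nat.cast_smul_eq_nsmul k, CharP.cast_eq_zero, zero_smul,
    smul_zero, add_zero] at h
  exact (smul_eq_zero.1 h).resolve_left (pow_ne_zero _ hs)

/-- It kills the constants. -/
theorem der_const {A M : Type*} [CommRing A] [Algebra A k] [AddCommGroup M] [Module k M]
    [Module A M] (D : Derivation A k M) (c : F) : D (φ (RatFunc.C c)) = 0 := by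
  have := Fintype.ofFinite F
  have h1 : (φ (RatFunc.C c)) ^ Fintype.card F = φ (RatFunc.C c) := by
    rw [← map_pow, ← map_pow, FiniteField.pow_card]
  have h2 : ((Fintype.card F : ℕ) : k) = 0 := by
    rw [← map_natCast (φ.comp RatFunc.C) (Fintype.card F), FiniteField.cast_card_eq_zero, map_zero]
  rw [← h1, D.leibniz_pow, ← Nat.cast_smul_eq_nsmul k, h2, zero_smul]

/-- A derivation which kills `t` kills `F(t)`. -/
theorem der_rat {A M : Type*} [CommRing A] [Algebra A k] [AddCommGroup M] [Module k M]
    [Module A M] (D : Derivation A k M) (h : D (φ RatFunc.X) = 0) (f : RatFunc F) :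
    D (φ f) = 0 := by
  have hpol : ∀ P : F[X], D (φ (algebraMap F[X] (RatFunc F) P)) = 0 := by
    intro P
    induction P using Polynomial.induction_on' with
    | add P Q hP hQ => rw [map_add, map_add, map_add, hP, hQ, add_zero]
    | monomial n a =>
      rw [← Polynomial.C_mul_X_pow_eq_monomial, map_mul, map_mul, D.leibniz, map_pow, map_pow,
        D.leibniz_pow, RatFunc.algebraMap_X, h, RatFunc.algebraMap_C, der_const]
      simp
  have h0 : algebraMap F[X] (RatFunc F) f.denom ≠ 0 := by
    simpa using f.denom_ne_zero
  have h1 : f * algebraMap F[X] (RatFunc F) f.denom = algebraMap F[X] (RatFunc F) f.num := by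
    have h3 := f.num_div_denom
    rwa [div_eq_iff h0, eq_comm] at h3
  have h2 := hpol f.num
  rw [← h1, map_mul, D.leibniz, hpol, smul_zero, zero_add] at h2
  exact (smul_eq_zero.1 h2).resolve_left ((_root_.map_ne_zero φ).2 h0)

/-- A derivation which kills `t` is zero if `k` is separable over `F(t)`. -/
theorem der_zero {A M : Type*} [CommRing A] [Algebra A k] [AddCommGroup M] [Module k M]
    [Module A M] (hφ : IsStr F k φ) (D : Derivation A k M) (h : D (φ RatFunc.X) = 0) (x : k) :
    D x = 0 := by
  let _ : Algebra (RatFunc F) k := φ.toAlgebra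
  have : FiniteDimensional (RatFunc F) k := hφ.1
  have : Algebra.IsSeparable (RatFunc F) k := hφ.2
  let _ : Module (RatFunc F) M := Module.compHom M φ
  let D' : Derivation (RatFunc F) k M :=
    { toFun := D
      map_add' := fun a b => map_add D a b
      map_smul' := fun c y => by
        change D (φ c * y) = φ c • D y
        rw [D.leibniz, der_rat D h, smul_zero, add_zero]
      map_one_eq_zero' := D.map_one_eq_zero
      leibniz' := fun a b => D.leibniz a b }
  have h1 := Algebra.IsSeparable.isSeparable (RatFunc F) x
  have h2 := D'.map_aeval (minpoly (RatFunc F) x) x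
  rw [minpoly.aeval, map_zero] at h2
  have h3 : aeval x (derivative (minpoly (RatFunc F) x)) ≠ 0 := h1.aeval_derivative_ne_zero
    (minpoly.aeval _ _)
  exact (smul_eq_zero.1 h2.symm).resolve_left h3

end der

/-- **The separating element.** -/
theorem exists_str {p : ℕ} [Fact p.Prime] {F k : Type} [Field F] [Finite F] [Field k] [CharP k p]
    {φ : RatFunc F →+* k} (hφ : IsStr F k φ) {s h : k} (hs : s ≠ 0)
    (hh : h = s ^ p * φ RatFunc.X) :
    ∃ ψ : RatFunc (ZMod p) →+* k, ψ RatFunc.X = h ∧ IsStr (ZMod p) k ψ := by
  classical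
  let _ : Algebra (ZMod p) k := ZMod.algebra k p
  have hF : CharP F p := (φ.comp RatFunc.C).charP (φ.comp RatFunc.C).injective p
  let _ : Algebra (ZMod p) F := ZMod.algebra F p
  let _ : Algebra F k := (φ.comp RatFunc.C).toAlgebra
  let _ : Algebra (RatFunc F) k := φ.toAlgebra
  have : FiniteDimensional (RatFunc F) k := hφ.1
  have : IsScalarTower F (RatFunc F) k := IsScalarTower.of_algebraMap_eq' rfl
  have : IsScalarTower (ZMod p) F k :=
    IsScalarTower.of_algebraMap_eq' (Subsingleton.elim _ _)
  have : Algebra.EssFiniteType F (RatFunc F) := by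
    have : Algebra.EssFiniteType F[X] (RatFunc F) :=
      Algebra.EssFiniteType.of_isLocalization _ (nonZeroDivisors F[X])
    exact Algebra.EssFiniteType.comp F F[X] (RatFunc F)
  have : Algebra.EssFiniteType F k := Algebra.EssFiniteType.comp F (RatFunc F) k
  have : Algebra.EssFiniteType (ZMod p) k := Algebra.EssFiniteType.comp (ZMod p) F k
  let E : IntermediateField (ZMod p) k := IntermediateField.adjoin (ZMod p) {h}
  have hhE : h ∈ E := IntermediateField.mem_adjoin_simple_self (ZMod p) h
  have : Algebra.EssFiniteType E k := Algebra.EssFiniteType.of_comp (ZMod p) E k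
  have hD0 : ∀ x : k, KaehlerDifferential.D E k x = 0 := by
    have h1 : KaehlerDifferential.D E k (s ^ p * φ RatFunc.X) = 0 := by
      rw [← hh]
      exact (KaehlerDifferential.D E k).map_algebraMap ⟨h, hhE⟩
    exact der_zero hφ _ (der_t _ hs h1)
  have hsub : Subsingleton (Ω[k⁄E]) := by
    rw [← Submodule.subsingleton_iff k, ← subsingleton_iff_bot_eq_top,
      ← KaehlerDifferential.span_range_derivation, eq_comm, Submodule.span_eq_bot]
    rintro _ ⟨x, rfl⟩
    exact hD0 x
  have hfu : Algebra.FormallyUnramified E k := ⟨hsub⟩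
  have hfin : Module.Finite E k := Algebra.FormallyUnramified.finite_of_free (R := E) (S := k)
  have hsep : Algebra.IsSeparable E k := Algebra.FormallyUnramified.isSeparable E k
  have ht : Transcendental (ZMod p) h := by
    intro hcon
    have h1 : Algebra.IsAlgebraic (ZMod p) E :=
      IntermediateField.isAlgebraic_adjoin_simple (isAlgebraic_iff_isIntegral.1 hcon)
    have h2 : Algebra.IsAlgebraic (ZMod p) k := Algebra.IsAlgebraic.trans (ZMod p) E k
    have h3 : IsAlgebraic (ZMod p) (φ RatFunc.X) := Algebra.IsAlgebraic.isAlgebraic _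
    have h4 : IsAlgebraic F (φ RatFunc.X) := h3.tower_top F
    have h5 : IsAlgebraic F (RatFunc.X : RatFunc F) := by
      have := (isAlgebraic_algebraMap_iff (R := F) (A := k) (a := (RatFunc.X : RatFunc F))
        (FaithfulSMul.algebraMap_injective (RatFunc F) k)).1
      exact this h4
    exact RatFunc.transcendental_X h5
  let e := RatFunc.algEquivOfTranscendental h ht
  refine ⟨(algebraMap E k).comp (e : RatFunc (ZMod p) →+* _), ?_, ?_, ?_⟩
  · simp [e]
  · let a1 : Algebra (RatFunc (ZMod p)) E := (e : RatFunc (ZMod p) →+* _).toAlgebra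
    let a2 : Algebra (RatFunc (ZMod p)) k := ((algebraMap E k).comp
      (e : RatFunc (ZMod p) →+* _)).toAlgebra
    have : IsScalarTower (RatFunc (ZMod p)) E k := IsScalarTower.of_algebraMap_eq' rfl
    have : Module.Finite (RatFunc (ZMod p)) E :=
      Module.Finite.of_surjective (Algebra.linearMap (RatFunc (ZMod p)) E) e.surjective
    exact Module.Finite.trans E k
  · let a2 : Algebra (RatFunc (ZMod p)) k := ((algebraMap E k).comp
      (e : RatFunc (ZMod p) →+* _)).toAlgebra
    exact Algebra.IsSeparable.of_equiv_equiv (A₁ := E) (B₁ := k)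
      (e.symm : E ≃+* RatFunc (ZMod p)) (RingEquiv.refl k) (by
        ext x
        change algebraMap _ k (e (e.symm x)) = algebraMap _ k x
        rw [e.apply_symm_apply])

end Vale.Agent.P011.H192.Span
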